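import Vale.Agent.P352G75.WA
import Vale.Agent.P352G75.Lt
import Vale.Agent.P352NA.LOC
import Vale.Agent.P352NA.JB
import Vale.Agent.P352X.EG.OPS

/-!
# P352G5, row OPS (graded): the letters act on the local vectors
-/

set_option linter.all false

open MeasureTheory Filter Topology Set
open scoped SchwartzMap ComplexConjugate

namespace Vale.Agent.P352X.EG.NG

open Vale.Agent.P352 Vale.Agent.P352.GF Vale.Agent.P352.BW Vale.Agent.P352.H246
open Vale.Agent.P352.H496 Vale.Agent.P352.H755 Vale.Agent.P352.H15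
open Vale.Agent.P352.SubConf (IsAdj)
open Vale.Agent.P352NA (Cyc)
open Vale.Agent.P352X.EB
open Vale.Agent.P352X.EB.NA (rv rv_cons rv_rv Sl adj_lin)
open UniformSpace (Completion)
open Bornology (IsBounded)

noncomputable section

variable {D : Type*} [NormedAddCommGroup D] [InnerProductSpace ℂ D] {c : Cg D} [Nd c] [NI c]
  {Λ : Type*} {K K' : Set V} {e e' : Bool} {ξ ξ' η η' v w : Completion D}

namespace Op

theorem d_wv {σ : List Bool} {u} (hK : IsCompact K) (h : Tw c K σ u) : D1 c (wv c u) :=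
  Submodule.subset_span ⟨K, σ, u, hK, h, rfl⟩

theorem ind {P : Completion D → Prop} (h0 : P 0) (h1 : ∀ v w, D1 c v → D1 c w → P v → P w → P (v + w))
    (h2 : ∀ (z : ℂ) v, D1 c v → P v → P (z • v))
    (h3 : ∀ K σ u, IsCompact K → Tw c K σ u → P (wv c u)) (hv : D1 c v) : P v :=
  Submodule.span_induction (p := fun v _ => P v)
    (by rintro _ ⟨K, σ, u, a, b, rfl⟩; exact h3 K σ u a b) h0 h1 h2 hv

variable (t : E2 c)
include t

theorem sh (n m : ℕ) : Ss c n m := fun K w h => let ⟨σ, _, a⟩ := h.ty; t.wrd K σ w h.cpt a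

theorem ok {σ : List Bool} {u} (hK : IsCompact K) (h : Tw c K σ u) :
    Ok c (σ.count true) u.length K u := ⟨hK, ⟨σ, le_rfl, h⟩, le_rfl⟩

theorem key (hv : D1 c v) : ∃ K0, IsCompact K0 ∧ ∀ K e p, IsCompact K → Ty c K e p →
    Rl c (K ∪ K0) p.2 v (ml c p.2 v) ∧ D1 c (ml c p.2 v) := by
  refine ind (P := fun v => ∃ K0, IsCompact K0 ∧ ∀ K e p, IsCompact K → Ty c K e p →
    Rl c (K ∪ K0) p.2 v (ml c p.2 v) ∧ D1 c (ml c p.2 v))
    ⟨∅, isCompact_empty, fun K e p hK _ => ?_⟩ ?_ ?_ (fun K0 σ u a b => ⟨K0, a, fun K e p hK h => ?_⟩)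
    hv
  · rw [Mu1.eq t.sg hK.isBounded Rl.zero_r]
    exact ⟨Rl.zero_r, zero_mem _⟩
  · rintro v w - - ⟨K1, a1, b1⟩ ⟨K2, a2, b2⟩
    refine ⟨_, a1.union a2, fun K e p hK h => ?_⟩
    have := Rl.lin_r 1 (Rl.mono (b1 K e p hK h).1 (union_subset_union_right K subset_union_left))
      (Rl.mono (b2 K e p hK h).1 (union_subset_union_right K (subset_union_right (s := K1))))
    simp only [one_smul] at this
    rw [Mu1.eq t.sg (hK.union (a1.union a2)).isBounded this]
    exact ⟨this, add_mem (b1 K e p hK h).2 (b2 K e p hK h).2⟩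
  · rintro z v - ⟨K1, a1, b1⟩
    refine ⟨_, a1, fun K e p hK h => ?_⟩
    have := Rl.lin_r z Rl.zero_r (b1 K e p hK h).1
    simp only [zero_add] at this
    rw [Mu1.eq t.sg (hK.union a1).isBounded this]
    exact ⟨this, Submodule.smul_mem _ _ (b1 K e p hK h).2⟩
  · have k : Tw c (K ∪ K0) (e :: σ) (p :: u) :=
      .cons (h.mono subset_union_left) (b.mono subset_union_right)
    exact ⟨(sh t _ _).step t.toE0 t.cov (ok t (hK.union a) k), d_wv (hK.union a) k⟩

theorem mem (hK : IsCompact K) (h : Ty c K e (ξ, ξ')) (hv : D1 c v) : D1 c (ml c ξ' v) :=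
  let ⟨_, _, b⟩ := key t hv; (b K e _ hK h).2

theorem lin_r (hK : IsCompact K) (h : Ty c K e (ξ, ξ')) (z : ℂ) (hv : D1 c v) (hw : D1 c w) :
    ml c ξ' (v + z • w) = ml c ξ' v + z • ml c ξ' w := by
  obtain ⟨K1, a1, b1⟩ := key t hv
  obtain ⟨K2, a2, b2⟩ := key t hw
  exact Mu1.eq t.sg (hK.union (a1.union a2)).isBounded (Rl.lin_r z
    (Rl.mono (b1 K e _ hK h).1 (union_subset_union_right K subset_union_left))
    (Rl.mono (b2 K e _ hK h).1 (union_subset_union_right K subset_union_right)))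

theorem zero : ml c w 0 = 0 := Mu1.eq t.sg Bornology.isBounded_empty Rl.zero_r

theorem add (hK : IsCompact K) (h : Ty c K e (ξ, ξ')) (hv : D1 c v) (hw : D1 c w) :
    ml c ξ' (v + w) = ml c ξ' v + ml c ξ' w := by simpa using lin_r t hK h 1 hv hw

theorem smul (hK : IsCompact K) (h : Ty c K e (ξ, ξ')) (z : ℂ) (hv : D1 c v) :
    ml c ξ' (z • v) = z • ml c ξ' v := by simpa [zero t] using lin_r t hK h z (zero_mem _) hv

theorem herm (hK : IsCompact K) (h : Ty c K e (ξ, ξ')) (hv : D1 c v) (hw : D1 c w) :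
    inner ℂ (ml c ξ' v) w = inner ℂ v (ml c ξ w) := by
  have h' : Ty c K e (ξ', ξ) := h.swap
  refine ind (P := fun v => inner ℂ (ml c ξ' v) w = inner ℂ v (ml c ξ w)) (by simp [zero t])
    (fun _ _ a b x y => by rw [add t hK h a b, inner_add_left, inner_add_left, x, y])
    (fun z _ a x => by rw [smul t hK h z a, inner_smul_left, inner_smul_left, x])
    (fun K1 σ u a b => ?_) hv
  refine ind (P := fun w => inner ℂ (ml c ξ' (wv c u)) w = inner ℂ (wv c u) (ml c ξ w))
    (by simp [zero t])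
    (fun _ _ a b x y => by rw [add t hK h' a b, inner_add_right, inner_add_right, x, y])
    (fun z _ a x => by rw [smul t hK h' z a, inner_smul_right, inner_smul_right, x])
    (fun K2 τ u' a' b' => ?_) hw
  have k := (hK.union a).union a'
  have s := t.wrd _ _ _ k ((Tw.rev (.cons (h.mono (subset_union_left.trans subset_union_left))
    (b.mono (subset_union_right.trans subset_union_left)))).append (b'.mono subset_union_right))
  have s1 := Rl.inner t.sg k.isBounded (s _ _ rfl)
  have s2 := Rl.inner t.sg k.isBounded (s (rv u) ((ξ', ξ) :: u') (by simp [rv_cons]))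
  rw [rv_rv] at s1 s2
  exact s1.symm.trans s2

omit t in
theorem tp_ty {p : Completion D × Completion D} (h : Tp c K e p) : ∃ a, Ty c K a p := by
  rcases h with ⟨-, h⟩ | ⟨B, B', f, a, b, d, -, hf, rfl⟩
  exacts [⟨true, h⟩, ⟨false, Tr.fld B B' f a b d hf⟩]

theorem tp_swap {p : Completion D × Completion D} (h : Tp c K e p) : Tp c K e p.swap := by
  rcases h with ⟨a, f, b, rfl⟩ | ⟨B, B', f, a, b, d, k, hf, rfl⟩
  · exact .inl ⟨a, bar f, b.bar, by rw [Ap.bar_bar]; rfl⟩
  · exact .inr ⟨B', B, bar f, b, a, H755.adj_symm d, t.bas.padj _ _ _ d k, hf.bar, by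
      rw [Ap.bar_bar]; rfl⟩

omit t in
theorem conj_sg (e : Bool) : conj (sg e) = sg e := by cases e <;> simp [sg]

theorem loc (hK : IsCompact K) (hK' : IsCompact K') (s : Sl K K') (k : Tp c K e (ξ, ξ'))
    (k' : Tp c K' e' (η, η')) (hv : D1 c v) :
    ml c ξ' (ml c η' v) = sg (e && e') • ml c η' (ml c ξ' v) := by
  obtain ⟨a, h⟩ := tp_ty k
  obtain ⟨a', h'⟩ := tp_ty k'
  refine ind (P := fun v => ml c ξ' (ml c η' v) = sg (e && e') • ml c η' (ml c ξ' v))
    (by simp [zero t])
    (fun _ _ a b x y => by rw [add t hK h a b, add t hK' h' a b, add t hK h (mem t hK' h' a)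
      (mem t hK' h' b), add t hK' h' (mem t hK h a) (mem t hK h b), x, y, smul_add])
    (fun z _ a x => by rw [smul t hK h z a, smul t hK' h' z a, smul t hK h z (mem t hK' h' a),
      smul t hK' h' z (mem t hK h a), x, smul_comm]) (fun K1 σ u a b => ?_) hv
  have l := (hK.union hK').union a
  have x := h.mono (K' := K ∪ K' ∪ K1) (subset_union_left.trans subset_union_left)
  have y := h'.mono (K' := K ∪ K' ∪ K1) (subset_union_right.trans subset_union_left)
  have z := b.mono (K' := K ∪ K' ∪ K1) subset_union_right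
  have s1 := t.wrd _ _ _ l (.cons x (.cons y z)) [_, _] u rfl
  have s2 := Rl.lin_l (sg (e && e')) Rl.zero_l (t.wrd _ _ _ l (.cons y (.cons x z)) [_, _] u rfl)
  rw [show rv [(ξ, ξ'), (η, η')] = [(η, η').swap, (ξ, ξ').swap] from rfl,
    t.loc K' K e' e _ _ hK' hK s.symm (tp_swap t k') (tp_swap t k), Bool.and_comm] at s1
  rw [zero_add, zero_add, conj_sg] at s2
  exact Rl.uniq t.sg l.isBounded s1 s2

theorem d_U (g : Sh c) (hv : D1 c v) : D1 c (g.U c v) :=
  ind (P := fun v => D1 c (g.U c v)) (by rw [map_zero]; exact zero_mem _)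
    (fun _ _ _ _ x y => by rw [map_add]; exact add_mem x y)
    (fun z _ _ x => by rw [map_smul]; exact Submodule.smul_mem _ _ x)
    (fun K σ u a b => by
      rw [← (sh t _ _).wv_U t.toE0 t.cov (ok t a b)]
      exact d_wv (a.image g.cont) (b.U t.toE0 t.cov g)) hv

omit t in
theorem rl_sum (s : SG c) {ι : Type*} (S : Finset ι) (κ : ι → ℂ) {ξ ζ : ι → Completion D}
    (h : ∀ i, ∃ K, IsBounded K ∧ Rl c K (ξ i) v (ζ i)) :
    ∃ K, IsBounded K ∧ Rl c K (∑ i ∈ S, conj (κ i) • ξ i) v (∑ i ∈ S, κ i • ζ i) := by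
  classical
  induction S using Finset.induction_on with
  | empty => exact ⟨∅, Bornology.isBounded_empty, Rl.zero_l⟩
  | insert i S hi ih =>
    obtain ⟨K, a, b⟩ := ih
    obtain ⟨K', a', b'⟩ := h i
    simp only [Finset.sum_insert hi, add_comm (_ • _)]
    exact ⟨_, a.union a', Rl.lin_l _ (Rl.mono b subset_union_left) (Rl.mono b' subset_union_right)⟩

omit t in
theorem cq {f : Fn} (hf : In univ f) : IsCompact (tsupport f) := hf.2.1

omit t in
theorem ty (x : Lt c Λ) (a : Λ) {f : Fn} (hf : In univ f) :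
    Ty c (tsupport f) (x.ty a).choose (x.φ a f, x.φ (x.dag a) (bar f)) :=
  (x.ty a).choose_spec _ f (Ops.in_self hf)

theorem rl (x : Lt c Λ) (a : Λ) {f : Fn} (hf : In univ f) (hv : D1 c v) :
    ∃ K, IsBounded K ∧ Rl c K (x.φ (x.dag a) (bar f)) v (x.op a f v) :=
  let ⟨_, a1, b⟩ := key t hv
  ⟨_, ((cq hf).union a1).isBounded, (b _ _ _ (cq hf) (ty x a hf)).1⟩

theorem op_lin (x : Lt c Λ) (a : Λ) {f g : Fn} (z : ℂ) (hf : In univ f) (hg : In univ g)
    (hv : D1 c v) : x.op a (fun y => f y + z * g y) v = x.op a f v + z • x.op a g v := by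
  have e : bar (fun y => f y + z * g y) = fun y => bar f y + conj z * bar g y := by
    funext y; simp [bar]
  obtain ⟨K, a1, b⟩ := rl t x a hf hv
  obtain ⟨K', a2, b'⟩ := rl t x a hg hv
  rw [Lt.op, e, x.lin _ _ _ _ hf.bar.1 hg.bar.1]
  exact Mu1.eq t.sg (a1.union a2)
    (Rl.lin_l _ (Rl.mono b subset_union_left) (Rl.mono b' subset_union_right))

theorem op_herm (x : Lt c Λ) (a : Λ) {f : Fn} (hf : In univ f) (hv : D1 c v) (hw : D1 c w) :
    inner ℂ (x.op a f v) w = inner ℂ v (x.op (x.dag a) (bar f) w) := by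
  unfold Lt.op
  rw [x.dag2, Ap.bar_bar]
  exact herm t (cq hf) (ty x a hf) hv hw

theorem op_cont (x : Lt c Λ) (a : Λ) (R : ℕ) (hv : D1 c v) :
    Continuous fun f : Sch => x.op a (cutf R (ev f)) v := by
  have hi : ∀ f : Sch, In (Metric.closedBall 0 (2 * ((R : ℝ) + 1))) (cutf R (ev f)) := fun f =>
    Ap.in_mono (t.ana.inn R _ (Ap.test_ev f)) inter_subset_right
  let Ψ := NA.JBp.mkL (fun f => x.op a (cutf R (ev f)) v) fun f g z => by
    rw [← op_lin t x a z (Ap.in_univ' (hi f)) (Ap.in_univ' (hi g)) hv]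
    congr 1
    funext y
    simp [cutf, ev]
    ring
  obtain ⟨K, hK, hL⟩ := key t hv
  have hB := isCompact_closedBall (0 : V) (2 * ((R : ℝ) + 1))
  obtain ⟨g, hg⟩ := t.sg.ex _ (hB.union hK).isBounded
  have hZ : Dense (g.inv.U c '' {z | ∃ Y ∈ (M0 c).commutant, Y c.Om = z}) :=
    DenseRange.dense_image (Function.Surjective.denseRange fun z => ⟨_, Ops.inv_U_app t.toE0 g z⟩)
      (g.inv.U c).continuous t.sg.dense
  haveI := t.ana.barr
  refine cont_of_weak Ψ hZ ?_
  rintro _ ⟨_, ⟨Y, hY, rfl⟩, rfl⟩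
  obtain ⟨P, hP⟩ := t.ana.clm R
  let B : Sch →L[ℝ] Sch := SchwartzMap.postcompCLM (𝕜 := ℝ) Complex.conjCLE.toContinuousLinearMap
  have hB' : ∀ f, ev (B f) = bar (ev f) := fun f => rfl
  have e : ∀ f : Sch, inner ℂ (g.inv.U c (Y c.Om)) (Ψ f) =
      inner ℂ (Y (g.U c (x.φ (x.dag a) (ev (B (P f)))))) (g.U c v) := by
    intro f
    have h1 := (hL _ _ _ hB ((x.ty a).choose_spec _ _ (hi f))).1 g hg Y hY
    rw [hB', hP, ← h1, t.sg.U_inv, ContinuousLinearMap.star_eq_adjoint,
      ContinuousLinearMap.adjoint_inner_left]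
    rfl
  simp only [e]
  exact (Y.continuous.comp ((g.U c).continuous.comp ((x.cont (x.dag a)).comp
    (B.continuous.comp P.continuous)))).inner continuous_const

theorem cont_adj {Y Y' : D → D} (h : ∀ v w, inner ℂ (Y v) w = inner ℂ v (Y' w)) {A : Fld D}
    (hA : c.Q.fld A) (y : D) : Continuous fun g : Sch => ((Y' (A (ev g) y) : D) : Completion D) := by
  have l := adj_lin (X := Y') (X' := Y) fun v w => by rw [← inner_conj_symm, ← h, inner_conj_symm]
  haveI := t.ana.barr
  refine cont_of_weak (NA.JBp.mkL (fun g => ((Y' (A (ev g) y) : D) : Completion D)) fun f g z => by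
    rw [show ev (f + z • g) = fun x => ev f x + z * ev g x from rfl,
      c.Q.lin A _ _ z y hA ⟨f, rfl⟩ ⟨g, rfl⟩, l.1, l.2, Completion.coe_add, Completion.coe_smul])
    Completion.denseRange_coe ?_
  rintro _ ⟨u, rfl⟩
  show Continuous fun g : Sch => inner ℂ (u : Completion D) ((Y' (A (ev g) y) : D) : Completion D)
  simp only [Completion.inner_coe, ← h]
  exact continuous_const.inner (c.Q.cont A y hA)

theorem ml_coe {B B' : Fld D} {f : Fn} (a : c.Q.fld B) (b : c.Q.fld B') (d : IsAdj B B')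
    (hf : In univ f) (y : D) : ml c (B' (bar f) c.Q.vac : D) y = (B f y : D) :=
  Mu1.eq t.sg (cq hf).isBounded (rl_afs t.toE0
    (t.sg.affa _ _ _ (.fld B B' f _ _ a b d (Ops.in_self hf) .one)) y)

theorem d_al {X X' : D → D} (h : Al c.Q univ X X') : ∀ y : D, D1 c y → D1 c (X' y : D) := by
  induction h with
  | one => exact fun _ h => h
  | add _ _ _ _ _ _ a b => exact fun y h => by rw [Completion.coe_add]; exact add_mem (a y h) (b y h)
  | smul z _ _ _ a =>
    exact fun y h => by rw [Completion.coe_smul]; exact Submodule.smul_mem _ _ (a y h)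
  | fld A B g _ _ a b d hg _ k =>
    refine fun y h => k _ ?_
    rw [← ml_coe t b a (H755.adj_symm d) hg.bar]
    exact mem t (cq hg.bar) (e := false) (Tr.fld B A _ b a (H755.adj_symm d) (Ops.in_self hg.bar)) h

theorem aff {B B' : Fld D} {f : Fn} (a : c.Q.fld B) (b : c.Q.fld B') (d : IsAdj B B')
    (hf : In univ f) (hv : D1 c v) {y : D} (hy : Cyc c.Q y) :
    inner ℂ (ml c (B' (bar f) c.Q.vac : D) v) (y : Completion D) =
      inner ℂ v ((B' (bar f) y : D) : Completion D) := by
  have l : ∀ {X X'}, Al c.Q univ X X' → (∀ v w, X' (v + w) = X' v + X' w) ∧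
      ∀ (z : ℂ) v, X' (z • v) = z • X' v := fun h => adj_lin fun v w => by
    rw [← inner_conj_symm, ← (t.sg.affa _ _ _ h).1, inner_conj_symm]
  have l' := l (.fld B B' f _ _ a b d hf .one)
  let S : Submodule ℂ D :=
    { carrier := {y | ∀ X X', Al c.Q univ X X' → inner ℂ (ml c (B' (bar f) c.Q.vac : D) v)
        ((X' y : D) : Completion D) = inner ℂ v ((B' (bar f) (X' y) : D) : Completion D)}
      add_mem' := fun h h' X X' k => by
        simp only [(l k).1, l'.1, Completion.coe_add, inner_add_right, h X X' k, h' X X' k]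
      zero_mem' := fun X X' k => by
        have a := (l k).2 0 0
        have b := l'.2 0 0
        simp only [zero_smul] at a b
        simp [a, b, Completion.coe_zero]
      smul_mem' := fun z _ h X X' k => by
        simp only [(l k).2, l'.2, Completion.coe_smul, inner_smul_right, h X X' k] }
  refine hy S (fun X X' k => ?_) ?_ (fun v => v) (fun v => v) .one
  · have y : Ty c (tsupport f) false (((B f c.Q.vac : D) : Completion D),
        ((B' (bar f) c.Q.vac : D) : Completion D)) := Tr.fld B B' f a b d (Ops.in_self hf)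
    have z := ml_coe t b a (H755.adj_symm d) hf.bar (X' c.Q.vac)
    rw [Ap.bar_bar] at z
    rw [← z]
    exact herm t (cq hf) y hv (d_al t k _ (d_wv isCompact_empty (u := []) .nil))
  rintro A _ u hA ⟨G, rfl⟩ hu X X' k
  obtain ⟨A', hA', d'⟩ := c.Q.adj A hA
  have k1 := (t.sg.affa _ _ _ k).1
  have c1 := (cont_adj t k1 hA u).tendsto G
  have c2 := (cont_adj t (Y := fun v => X (B f v)) (Y' := fun v => B' (bar f) (X' v))
    (fun v w => by rw [k1, d f _ _ hf.1]) hA u).tendsto G
  refine tendsto_nhds_unique (tendsto_const_nhds.inner (c1.comp (t.ana.lim G)))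
    ((tendsto_const_nhds.inner (c2.comp (t.ana.lim G))).congr fun R => ?_)
  have i := Ap.in_univ' (t.ana.inn R _ (Ap.test_ev G))
  have := hu _ _ (.fld A' A _ X X' hA' hA (H755.adj_symm d') i.bar k)
  simp only [Ap.bar_bar] at this
  simp only [Function.comp_apply, Ap.ev_sch i.1]
  exact this.symm

end Op

open Op in
/-- row OPS -/
theorem ops_row (t : E2 c) (x : Lt c Λ) : OPS x where
  d_vac := d_wv isCompact_empty .nil
  d_zero := zero_mem _
  d_add := fun _ _ => add_mem
  d_smul := fun z _ => Submodule.smul_mem _ z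
  d_U := fun g _ => d_U t g
  mem := fun a f v hf => mem t (cq hf) (ty x a hf)
  add := fun a f v w hf => add t (cq hf) (ty x a hf)
  smul := fun a f z v hf => smul t (cq hf) (ty x a hf) z
  lin := fun a f g z v => op_lin t x a z
  herm := fun a f v w => op_herm t x a
  cov := fun a g n κ b f v h hf hv => by
    obtain ⟨K, a1, a2⟩ := rl_sum t.sg Finset.univ κ fun i =>
      let ⟨K, b1, b2⟩ := rl t x (b i) (Ap.in_univ' (t.sg.inn g _ f hf)) hv
      ⟨_, t.sg.bdd g K b1, Rl.U t.sg b2 g⟩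
    rw [Lt.op, h _ hf.bar.1]
    exact Mu1.eq t.sg a1 a2
  loc := fun a b f g v hf hg s => loc t (cq hf) (cq hg) s (x.tp a _ f (Ops.in_self hf))
    (x.tp b _ g (Ops.in_self hg))
  aff := fun a B B' f v w h hf hv hw => by
    rw [Lt.op, (h.2.2.2 _ hf.bar.1).2]
    exact aff t h.1 h.2.1 h.2.2.1 hf hv hw
  zero := fun n κ b f v hf h hv => by
    have m : D1 c (∑ i, κ i • x.op (b i) (f i) v) := Submodule.sum_mem _ fun i _ =>
      Submodule.smul_mem _ _ (mem t (cq (hf i)) (ty x _ (hf i)) hv)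
    obtain ⟨K, a1, a2⟩ := rl_sum t.sg Finset.univ (fun i => conj (κ i)) fun i =>
      rl t x (x.dag (b i)) (hf i).bar m
    simp only [Complex.conj_conj, x.dag2, Ap.bar_bar, h] at a2
    have := congrArg (inner ℂ v) (Rl.uniq t.sg a1 a2 Rl.zero_l)
    rw [inner_zero_right, inner_sum] at this
    refine inner_self_eq_zero.1 (Eq.trans ?_ this)
    nth_rewrite 1 [sum_inner]
    exact Finset.sum_congr rfl fun i _ => by
      rw [inner_smul_left, inner_smul_right, op_herm t x _ (hf i) hv m]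
  cont := fun a R v => op_cont t x a R
  vac := fun a f hf => by
    have := Ty.rl t.toE0 t.cov (ty x a hf)
    dsimp only at this
    exact Mu1.eq t.sg (cq hf).isBounded this

end

end Vale.Agent.P352X.EG.NG
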